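import Vale.Agent.H10.CT.StarArms

/-!
P328: the block Dirichlet form and the penalty of a pair of columns do not depend on the order
of the pair, and the star inequality with uncapped arms for ordered pairs.
-/

namespace Vale.Agent.H10.CT

open Finset Vale.Agent.H90 Vale.Agent.H14.CT

variable {n : ℕ} {s : Fin n → ℕ} {ρ : ℕ}

theorem lineRel_comm (a b : Fin n) (z w : Box n s ρ) : LineRel a b z w ↔ LineRel b a z w :=
  ⟨fun h k hkb hka => h k hka hkb, fun h k hka hkb => h k hkb hka⟩

/-- The block Dirichlet form of a pair does not depend on its order. -/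
theorem QB_symm (a b : Fin n) (f : Box n s ρ → ℝ) : QB b a f = QB a b f := by
  unfold QB
  rw [avgRel_congr (LineRel b a) (LineRel a b) (fun z w => lineRel_comm b a z w) f]

theorem depthB_symm (a b : Fin n) (z : Box n s ρ) : depthB b a z = depthB a b z := by
  unfold depthB
  omega

/-- The penalty of a pair does not depend on its order. -/
theorem penB_symm (a b : Fin n) (hab : a ≠ b) (f : Box n s ρ → ℝ) :
    penB b a f = penB a b f := by
  unfold penB
  rw [min_comm (s b) (s a)]
  refine Finset.sum_congr rfl (fun d _ => ?_)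
  have e1 : univ.filter (fun z : Box n s ρ => d ≤ depthB b a z)
      = univ.filter (fun z : Box n s ρ => d ≤ depthB a b z) := by
    refine Finset.filter_congr (fun z _ => ?_)
    rw [depthB_symm]
  have e2 : ((univ.filter (fun z : Box n s ρ => levelB b a z = d)).card : ℝ)
      = ((univ.filter (fun z : Box n s ρ => levelB a b z = d)).card : ℝ) := by
    refine card_level_eq a b hab (levelB b a) (fun z G => ?_) d
    have h := box_class_level b a (Ne.symm hab) z G
    rw [depthB_symm a b z] at h
    rw [← h]
    refine Finset.sum_congr ?_ (fun _ _ => rfl)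
    ext z'
    simp only [Finset.mem_filter, Finset.mem_univ, true_and]
    exact lineRel_comm a b z z'
  rw [e1, e2]

/-- Sum over the ordered pairs of distinct indices that contain `a`. -/
theorem sum_star {n : ℕ} (a : Fin n) (G : Fin n → Fin n → ℝ) :
    ∑ x : Fin n, ∑ y : Fin n, (if x ≠ y ∧ (x = a ∨ y = a) then G x y else 0)
      = ∑ b : Fin n, (if b ≠ a then G a b else 0)
        + ∑ b : Fin n, (if b ≠ a then G b a else 0) := by
  have e : ∀ x y : Fin n, (if x ≠ y ∧ (x = a ∨ y = a) then G x y else 0)
      = (if x = a then (if y ≠ a then G x y else 0) else 0)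
        + (if y = a then (if x ≠ a then G x y else 0) else 0) := by
    intro x y
    by_cases hx : x = a
    · by_cases hy : y = a
      · subst hx
        subst hy
        simp
      · subst hx
        have hxy : x ≠ y := fun h => hy h.symm
        simp [hy, hxy]
    · by_cases hy : y = a
      · subst hy
        simp [hx]
      · simp [hx, hy]
  rw [Finset.sum_congr rfl (fun x _ => Finset.sum_congr rfl (fun y _ => e x y))]
  have e1 : ∀ x : Fin n,
      ∑ y : Fin n, ((if x = a then (if y ≠ a then G x y else 0) else 0)
        + (if y = a then (if x ≠ a then G x y else 0) else 0))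
      = (if x = a then ∑ y : Fin n, (if y ≠ a then G x y else 0) else 0)
        + (if x ≠ a then G x a else 0) := by
    intro x
    rw [Finset.sum_add_distrib, Finset.sum_ite_eq']
    congr 1
    · by_cases hx : x = a <;> simp [hx]
    · simp
  rw [Finset.sum_congr rfl (fun x _ => e1 x), Finset.sum_add_distrib, Finset.sum_ite_eq']
  simp

/-- **Sharp star inequality with uncapped arms, ordered pairs.**  The form of
`star_arms_uncapped` in which every pair containing `a` is counted in both orders. -/
theorem star_arms_uncapped_ordered (n : ℕ) (hn : 2 ≤ n) (s : Fin n → ℕ) (ρ : ℕ) (a : Fin n)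
    (hs : ∀ b, b ≠ a → ρ ≤ s b) (f : Box n s ρ → ℝ) (hf : ∑ z, f z = 0) :
    ∑ x : Fin n, ∑ y : Fin n, (if x ≠ y ∧ (x = a ∨ y = a) then penB x y f else 0)
      + 2 * ((2 * ((n : ℝ) - 1) / n) * ∑ z, avgRel (SliceRel a) f z ^ 2)
      ≤ ∑ x : Fin n, ∑ y : Fin n, (if x ≠ y ∧ (x = a ∨ y = a) then QB x y f else 0) := by
  have h := star_arms_uncapped n hn s ρ a hs f hf
  have hp : ∑ b : Fin n, (if b ≠ a then penB b a f else 0)
      = ∑ b : Fin n, (if b ≠ a then penB a b f else 0) := by
    refine Finset.sum_congr rfl (fun b _ => ?_)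
    by_cases hb : b ≠ a
    · rw [if_pos hb, if_pos hb, penB_symm a b (Ne.symm hb)]
    · rw [if_neg hb, if_neg hb]
  have hq : ∑ b : Fin n, (if b ≠ a then QB b a f else 0)
      = ∑ b : Fin n, (if b ≠ a then QB a b f else 0) := by
    refine Finset.sum_congr rfl (fun b _ => ?_)
    by_cases hb : b ≠ a
    · rw [if_pos hb, if_pos hb, QB_symm a b]
    · rw [if_neg hb, if_neg hb]
  rw [sum_star a (fun x y => penB x y f), sum_star a (fun x y => QB x y f), hp, hq]
  linarith

end Vale.Agent.H10.CT
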