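import Vale.Agent.H91.CT.BoxLift
import Vale.Agent.H14.CT.BoxFreeDefs

/-!
P328: the sharp star inequality at a column `a` all of whose other columns are uncapped
(`ρ ≤ s b` for `b ≠ a`):

  `∑_{b ≠ a} penB a b f + (2 (n - 1) / n) |E_a f|^2 ≤ ∑_{b ≠ a} QB a b f`  for `∑ f = 0`,

where `E_a f` is the average of `f` over the slices `{z a = const}`.  The proof feeds explicit
lifts `f - E_a f + β (z a) (z b - (ρ - z a) / (n - 1))` to the lift calculus of
`Vale.Agent.H91.CT.BoxLift`; the norm of the correction telescopes.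
-/

namespace Vale.Agent.H10.CT

open Finset Vale.Agent.H90 Vale.Agent.H14.CT

/-! ### The sequence identities -/

/-- The recursion behind the lifts, on abstract sequences. -/
theorem seq_core (J : ℕ) (m r : ℝ) (hm : 0 < m) (π u B β : ℕ → ℝ)
    (hπ : ∀ j, j ≤ J → 0 < π j)
    (hA : ∀ j, j < J → (r - j) * π j = (r - (j + 1) + m) * π (j + 1))
    (hK : ∀ j, j ≤ J → (r - j) * π j * B j = -m * ∑ i ∈ range (j + 1), π i * u i)
    (hβ0 : β 0 = B 0) (hβ : ∀ j, β (j + 1) = B (j + 1) - B j)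
    (hBJ : B J = 0) :
    (∀ D, D ≤ J → ∑ t ∈ range (D + 1), β t = B D) ∧
    (∀ D, D ≤ J → ∑ t ∈ range (D + 1), (β t * (t + (r - t) / m) + u t) = D * B D) ∧
    ∑ t ∈ range (J + 1), π t * ((r - t) * (r - t + m) / m ^ 2) * β t ^ 2
      = ∑ t ∈ range (J + 1), π t * u t ^ 2 := by
  have hm0 : m ≠ 0 := ne_of_gt hm
  -- the two recursions
  have rec0 : r * B 0 = -m * u 0 := by
    have h := hK 0 (Nat.zero_le _)
    simp only [zero_add, Finset.sum_range_one, Nat.cast_zero, sub_zero] at h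
    have hp := hπ 0 (Nat.zero_le _)
    have hp0 : π 0 ≠ 0 := ne_of_gt hp
    apply mul_left_cancel₀ hp0
    linear_combination h
  have rec1 : ∀ j, j < J →
      (r - (j + 1)) * B (j + 1) = (r - (j + 1) + m) * B j - m * u (j + 1) := by
    intro j hj
    have h1 := hK (j + 1) hj
    have h0 := hK j (le_of_lt hj)
    have hA0 := hA j hj
    rw [Finset.sum_range_succ] at h1
    push_cast at h1
    have hp0 : π (j + 1) ≠ 0 := ne_of_gt (hπ (j + 1) hj)
    apply mul_left_cancel₀ hp0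
    linear_combination h1 - h0 + B j * hA0
  refine ⟨?_, ?_, ?_⟩
  · intro D
    induction D with
    | zero => intro _; simp [hβ0]
    | succ D ih =>
      intro hD
      rw [Finset.sum_range_succ, ih (by omega), hβ D]
      ring
  · intro D
    induction D with
    | zero =>
      intro _
      simp only [zero_add, Finset.sum_range_one, Nat.cast_zero, sub_zero, zero_mul]
      rw [hβ0]
      field_simp
      linear_combination rec0
    | succ D ih =>
      intro hD
      rw [Finset.sum_range_succ, ih (by omega), hβ D]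
      have h := rec1 D (by omega)
      push_cast
      field_simp
      linear_combination h
  · have key : ∀ D, D ≤ J →
        ∑ t ∈ range (D + 1),
          (π t * u t ^ 2 - π t * ((r - t) * (r - t + m) / m ^ 2) * β t ^ 2)
          = -(π D * ((r - D) / m) * B D ^ 2) := by
      intro D
      induction D with
      | zero =>
        intro _
        simp only [zero_add, Finset.sum_range_one, Nat.cast_zero, sub_zero]
        rw [hβ0]
        have hu : u 0 = -(r * B 0) / m := by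
          rw [eq_div_iff hm0]
          linear_combination rec0
        rw [hu]
        field_simp
        ring
      | succ D ih =>
        intro hD
        rw [Finset.sum_range_succ, ih (by omega), hβ D]
        have h := rec1 D (by omega)
        have hA0 := hA D (by omega)
        have hu : u (D + 1) = ((r - (D + 1) + m) * B D - (r - (D + 1)) * B (D + 1)) / m := by
          rw [eq_div_iff hm0]
          linear_combination h
        have hp : π D * (r - D) = (r - (D + 1) + m) * π (D + 1) := by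
          linear_combination hA0
        rw [hu]
        push_cast
        have e : π D * ((r - D) / m) = (r - (D + 1) + m) * π (D + 1) / m := by
          rw [← hp]; ring
        rw [e]
        field_simp
        ring
    have h := key J le_rfl
    rw [hBJ] at h
    rw [Finset.sum_sub_distrib] at h
    have h' : ∑ t ∈ range (J + 1), π t * u t ^ 2
        - ∑ t ∈ range (J + 1), π t * ((r - t) * (r - t + m) / m ^ 2) * β t ^ 2 = 0 := by
      rw [h]; ring
    linarith

/-! ### Elementary sums -/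

theorem sum_id_real (N : ℕ) : ∑ t ∈ range (N + 1), (t : ℝ) = N * (N + 1) / 2 := by
  induction N with
  | zero => simp
  | succ N ih =>
    rw [Finset.sum_range_succ, ih]
    push_cast
    ring

theorem sum_sq_real (N : ℕ) :
    ∑ t ∈ range (N + 1), (t : ℝ) ^ 2 = N * (N + 1) * (2 * N + 1) / 6 := by
  induction N with
  | zero => simp
  | succ N ih =>
    rw [Finset.sum_range_succ, ih]
    push_cast
    ring

/-- Sum over the indices different from `a`. -/
theorem sum_ne {n : ℕ} (a : Fin n) (g : Fin n → ℝ) :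
    ∑ c : Fin n, (if c ≠ a then g c else 0) = ∑ c, g c - g a := by
  have e : ∀ c : Fin n, (if c ≠ a then g c else 0) = g c - (if c = a then g c else 0) := by
    intro c
    by_cases h : c = a <;> simp [h]
  rw [Finset.sum_congr rfl (fun c _ => e c), Finset.sum_sub_distrib, Finset.sum_ite_eq']
  simp

theorem sum_ne_const {n : ℕ} (a : Fin n) (K : ℝ) :
    ∑ c : Fin n, (if c ≠ a then K else 0) = ((n : ℝ) - 1) * K := by
  rw [sum_ne a (fun _ => K)]
  simp
  ring

/-- Sum over the indices different from `a` and `b`. -/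
theorem sum_ne2 {n : ℕ} (a b : Fin n) (hab : b ≠ a) (g : Fin n → ℝ) :
    ∑ c : Fin n, (if c ≠ a ∧ c ≠ b then g c else 0) = ∑ c, g c - g a - g b := by
  have e : ∀ c : Fin n, (if c ≠ a ∧ c ≠ b then g c else 0)
      = g c - (if c = a then g c else 0) - (if c = b then g c else 0) := by
    intro c
    by_cases h : c = a
    · subst h
      have hb : c ≠ b := fun h' => hab h'.symm
      simp [hb]
    · by_cases h' : c = b
      · subst h'
        simp [h]
      · simp [h, h']
  rw [Finset.sum_congr rfl (fun c _ => e c), Finset.sum_sub_distrib, Finset.sum_sub_distrib,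
    Finset.sum_ite_eq', Finset.sum_ite_eq']
  simp

/-! ### Lines of a pair whose second column is uncapped -/

section box

variable {n : ℕ} {s : Fin n → ℕ} {ρ : ℕ}

theorem pair_le (x y : Fin n) (hxy : x ≠ y) (z : Box n s ρ) : z.1 x + z.1 y ≤ ρ := by
  have h := z.2.2
  have h1 : ∑ k ∈ ({x, y} : Finset (Fin n)), z.1 k ≤ ∑ k, z.1 k :=
    Finset.sum_le_sum_of_subset (Finset.subset_univ _)
  rw [Finset.sum_pair hxy] at h1
  omega

theorem one_le (x : Fin n) (z : Box n s ρ) : z.1 x ≤ ρ := by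
  have h := z.2.2
  have h1 : z.1 x ≤ ∑ k, z.1 k :=
    Finset.single_le_sum (fun _ _ => Nat.zero_le _) (Finset.mem_univ x)
  omega

theorem levelB_arm (x y : Fin n) (hxy : x ≠ y) (hy : ρ ≤ s y) (z : Box n s ρ) :
    levelB x y z = z.1 x := by
  have h := pair_le x y hxy z
  unfold levelB
  omega

theorem depthB_arm (x y : Fin n) (hxy : x ≠ y) (hy : ρ ≤ s y) (z : Box n s ρ) :
    depthB x y z = min (z.1 x + z.1 y) (s x) := by
  have h := pair_le x y hxy z
  have h1 := z.2.1 x
  have h2 := z.2.1 y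
  unfold depthB
  omega

/-- Sum over a line of the pair `x, y` with `y` uncapped. -/
theorem line_sum_arm (x y : Fin n) (hxy : x ≠ y) (hy : ρ ≤ s y) (z : Box n s ρ)
    (Φ : ℕ → ℕ → ℝ) :
    ∑ z' ∈ univ.filter (fun z' => LineRel x y z z'), Φ (z'.1 x) (z'.1 y)
      = ∑ t ∈ range (min (z.1 x + z.1 y) (s x) + 1), Φ t (z.1 x + z.1 y - t) := by
  have h := box_class_level x y hxy z (fun t => Φ t (z.1 x + z.1 y - t))
  rw [depthB_arm x y hxy hy z] at h
  rw [← h]
  refine Finset.sum_congr rfl (fun z' hz' => ?_)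
  have hl : LineRel x y z z' := (Finset.mem_filter.1 hz').2
  have hsum := lineRel_sum x y hxy z z' hl
  rw [levelB_arm x y hxy hy z']
  have e : z.1 x + z.1 y - z'.1 x = z'.1 y := by omega
  rw [e]

/-- A function with zero sums on the lines of `x, y` is orthogonal to the line-invariant
functions. -/
theorem zero_of_line_zero (x y : Fin n) (F I : Box n s ρ → ℝ)
    (hF : ∀ z, ∑ z' ∈ univ.filter (fun z' => LineRel x y z z'), F z' = 0)
    (hI : ∀ z w, LineRel x y z w → I z = I w) : ∑ z, I z * F z = 0 := by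
  have hR := lineRel_equiv (s := s) (ρ := ρ) x y
  have h0 : avgRel (LineRel x y) F = fun _ => 0 := by
    funext z
    unfold avgRel
    rw [hF z]
    simp
  have h := avgRel_dot hR I F
  rw [avgRel_eq_self hR I hI, h0] at h
  unfold dot at h
  simpa using h.symm

/-! ### Slices of the centre column -/

/-- Sum over the slice `{z a = t}`. -/
noncomputable def sl (a : Fin n) (t : ℕ) (F : Box n s ρ → ℝ) : ℝ :=
  ∑ z ∈ univ.filter (fun z : Box n s ρ => z.1 a = t), F z

/-- Number of points of the slice `{z a = t}`. -/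
noncomputable def cnt (n : ℕ) (s : Fin n → ℕ) (ρ : ℕ) (a : Fin n) (t : ℕ) : ℝ :=
  ((univ.filter (fun z : Box n s ρ => z.1 a = t)).card : ℝ)

theorem sl_const (a : Fin n) (t : ℕ) (K : ℝ) :
    sl a t (fun _ : Box n s ρ => K) = cnt n s ρ a t * K := by
  unfold sl cnt
  rw [Finset.sum_const, nsmul_eq_mul]

theorem sl_congr (a : Fin n) (t : ℕ) (F G : Box n s ρ → ℝ)
    (h : ∀ z : Box n s ρ, z.1 a = t → F z = G z) : sl a t F = sl a t G := by
  unfold sl
  exact Finset.sum_congr rfl (fun z hz => h z (Finset.mem_filter.1 hz).2)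

theorem sl_add (a : Fin n) (t : ℕ) (F G : Box n s ρ → ℝ) :
    sl a t (fun z => F z + G z) = sl a t F + sl a t G := by
  unfold sl
  rw [Finset.sum_add_distrib]

theorem sl_sub (a : Fin n) (t : ℕ) (F G : Box n s ρ → ℝ) :
    sl a t (fun z => F z - G z) = sl a t F - sl a t G := by
  unfold sl
  rw [Finset.sum_sub_distrib]

theorem sl_mul (a : Fin n) (t : ℕ) (K : ℝ) (F : Box n s ρ → ℝ) :
    sl a t (fun z => K * F z) = K * sl a t F := by
  unfold sl
  rw [Finset.mul_sum]

theorem sl_eq_ind (a : Fin n) (t : ℕ) (F : Box n s ρ → ℝ) :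
    sl a t F = ∑ z, (if z.1 a = t then (1 : ℝ) else 0) * F z := by
  unfold sl
  rw [Finset.sum_filter]
  refine Finset.sum_congr rfl (fun z _ => ?_)
  by_cases h : z.1 a = t <;> simp [h]

theorem sum_slices (a : Fin n) (F : Box n s ρ → ℝ) :
    ∑ z, F z = ∑ t ∈ range (min (s a) ρ + 1), sl a t F := by
  unfold sl
  refine (Finset.sum_fiberwise_of_maps_to (g := fun z : Box n s ρ => z.1 a) ?_ F).symm
  intro z _
  have h1 := z.2.1 a
  have h2 := one_le a z
  rw [Finset.mem_range]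
  omega

theorem sl_comm_sum (a : Fin n) (t : ℕ) (P : Fin n → Prop) [DecidablePred P]
    (G : Fin n → Box n s ρ → ℝ) :
    ∑ c : Fin n, (if P c then sl a t (G c) else 0)
      = sl a t (fun z => ∑ c : Fin n, (if P c then G c z else 0)) := by
  unfold sl
  rw [Finset.sum_comm]
  refine Finset.sum_congr rfl (fun c _ => ?_)
  by_cases h : P c <;> simp [h]

/-- Slice sums of functions with zero sums on the lines of two arms. -/
theorem sl_zero_of_line (a b c : Fin n) (hba : b ≠ a) (hca : c ≠ a) (hbc : b ≠ c)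
    (hb : ρ ≤ s b) (hc : ρ ≤ s c) (t : ℕ) (Φ : ℕ → ℕ → ℝ)
    (hΦ : ∀ σ : ℕ, ∑ i ∈ range (σ + 1), Φ i (σ - i) = 0) :
    sl a t (fun z : Box n s ρ => Φ (z.1 b) (z.1 c)) = 0 := by
  rw [sl_eq_ind]
  refine zero_of_line_zero b c _ _ ?_ ?_
  · intro z
    rw [line_sum_arm b c hbc hc z Φ]
    have h := pair_le b c hbc z
    have e : min (z.1 b + z.1 c) (s b) = z.1 b + z.1 c := by omega
    rw [e]
    exact hΦ _
  · intro z w h
    have e : z.1 a = w.1 a := h a (Ne.symm hba) (Ne.symm hca)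
    rw [e]

theorem phi1_zero (σ : ℕ) :
    ∑ i ∈ range (σ + 1), ((i : ℝ) - ((σ - i : ℕ) : ℝ)) = 0 := by
  have e : ∀ i ∈ range (σ + 1), ((i : ℝ) - ((σ - i : ℕ) : ℝ)) = 2 * (i : ℝ) - σ := by
    intro i hi
    have hi' : i ≤ σ := by
      have := Finset.mem_range.1 hi
      omega
    rw [Nat.cast_sub hi']
    ring
  rw [Finset.sum_congr rfl e, Finset.sum_sub_distrib, ← Finset.mul_sum, sum_id_real,
    Finset.sum_const, Finset.card_range, nsmul_eq_mul]
  push_cast
  ring

theorem phi2_zero (σ : ℕ) :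
    ∑ i ∈ range (σ + 1), ((i : ℝ) ^ 2 - i - 2 * i * ((σ - i : ℕ) : ℝ)) = 0 := by
  have e : ∀ i ∈ range (σ + 1), ((i : ℝ) ^ 2 - i - 2 * i * ((σ - i : ℕ) : ℝ))
      = 3 * (i : ℝ) ^ 2 - (2 * σ + 1) * i := by
    intro i hi
    have hi' : i ≤ σ := by
      have := Finset.mem_range.1 hi
      omega
    rw [Nat.cast_sub hi']
    ring
  rw [Finset.sum_congr rfl e, Finset.sum_sub_distrib, ← Finset.mul_sum, ← Finset.mul_sum,
    sum_id_real, sum_sq_real]
  ring

/-- Exchangeability of the arms on a slice (first moments). -/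
theorem sl_arm_eq (a b c : Fin n) (hba : b ≠ a) (hca : c ≠ a)
    (hb : ρ ≤ s b) (hc : ρ ≤ s c) (t : ℕ) :
    sl a t (fun z : Box n s ρ => (z.1 c : ℝ)) = sl a t (fun z : Box n s ρ => (z.1 b : ℝ)) := by
  by_cases hbc : b = c
  · rw [hbc]
  · have h := sl_zero_of_line a b c hba hca hbc hb hc t (fun i j => (i : ℝ) - (j : ℝ)) phi1_zero
    rw [sl_sub] at h
    linarith

theorem sum_arms (a : Fin n) (z : Box n s ρ) :
    ∑ c : Fin n, (if c ≠ a then (z.1 c : ℝ) else 0) = (ρ : ℝ) - z.1 a := by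
  rw [sum_ne a (fun c => (z.1 c : ℝ)), ← Nat.cast_sum, z.2.2]

/-- First moment of an arm on a slice. -/
theorem sl_first (a b : Fin n) (hba : b ≠ a) (hs : ∀ c, c ≠ a → ρ ≤ s c) (t : ℕ) :
    ((n : ℝ) - 1) * sl a t (fun z : Box n s ρ => (z.1 b : ℝ))
      = ((ρ : ℝ) - t) * cnt n s ρ a t := by
  have h2 : ∑ c : Fin n, (if c ≠ a then sl a t (fun z : Box n s ρ => (z.1 c : ℝ)) else 0)
      = ((n : ℝ) - 1) * sl a t (fun z : Box n s ρ => (z.1 b : ℝ)) := by
    rw [← sum_ne_const]
    refine Finset.sum_congr rfl (fun c _ => ?_)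
    by_cases hc : c ≠ a
    · rw [if_pos hc, if_pos hc]
      exact sl_arm_eq a b c hba hc (hs b hba) (hs c hc) t
    · rw [if_neg hc, if_neg hc]
  rw [← h2, sl_comm_sum a t (fun c => c ≠ a) (fun c z => (z.1 c : ℝ))]
  rw [sl_congr a t _ (fun _ => (ρ : ℝ) - t) (fun z hz => by rw [sum_arms a z, hz]), sl_const]
  ring

/-- Second moment of an arm on a slice. -/
theorem sl_second (a b : Fin n) (hba : b ≠ a) (hs : ∀ c, c ≠ a → ρ ≤ s c) (t : ℕ) :
    (n : ℝ) * sl a t (fun z : Box n s ρ => (z.1 b : ℝ) ^ 2)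
      = (2 * ((ρ : ℝ) - t) + n - 2) * sl a t (fun z : Box n s ρ => (z.1 b : ℝ)) := by
  have h0 : ∑ c : Fin n, (if c ≠ a ∧ c ≠ b then
      sl a t (fun z : Box n s ρ => (z.1 b : ℝ) ^ 2 - z.1 b - 2 * z.1 b * (z.1 c : ℝ)) else 0)
      = 0 := by
    refine Finset.sum_eq_zero (fun c _ => ?_)
    by_cases hc : c ≠ a ∧ c ≠ b
    · rw [if_pos hc]
      exact sl_zero_of_line a b c hba hc.1 (Ne.symm hc.2) (hs b hba) (hs c hc.1) t
        (fun i j => (i : ℝ) ^ 2 - i - 2 * i * (j : ℝ)) phi2_zero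
    · rw [if_neg hc]
  rw [sl_comm_sum a t (fun c => c ≠ a ∧ c ≠ b)
    (fun c z => (z.1 b : ℝ) ^ 2 - z.1 b - 2 * z.1 b * (z.1 c : ℝ))] at h0
  have e : ∀ z : Box n s ρ, z.1 a = t →
      ∑ c : Fin n, (if c ≠ a ∧ c ≠ b then
        (z.1 b : ℝ) ^ 2 - z.1 b - 2 * z.1 b * (z.1 c : ℝ) else 0)
      = (n : ℝ) * (z.1 b : ℝ) ^ 2 + (-(2 * ((ρ : ℝ) - t) + n - 2)) * (z.1 b : ℝ) := by
    intro z hz
    rw [sum_ne2 a b hba (fun c => (z.1 b : ℝ) ^ 2 - z.1 b - 2 * z.1 b * (z.1 c : ℝ))]
    rw [Finset.sum_sub_distrib, Finset.sum_const, Finset.card_univ, Fintype.card_fin,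
      nsmul_eq_mul, ← Finset.mul_sum, ← Nat.cast_sum, z.2.2, hz]
    ring
  rw [sl_congr a t _ _ e, sl_add, sl_mul, sl_mul] at h0
  linarith

/-- Centred second moment of an arm on a slice. -/
theorem sl_var (a b : Fin n) (hba : b ≠ a) (hs : ∀ c, c ≠ a → ρ ≤ s c) (hn : 2 ≤ n) (t : ℕ) :
    sl a t (fun z : Box n s ρ => ((z.1 b : ℝ) - ((ρ : ℝ) - t) / ((n : ℝ) - 1)) ^ 2)
      = cnt n s ρ a t * (((ρ : ℝ) - t) * ((ρ : ℝ) - t + ((n : ℝ) - 1)) * ((n : ℝ) - 2)
          / (((n : ℝ) - 1) ^ 2 * n)) := by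
  have hn' : (2 : ℝ) ≤ n := by exact_mod_cast hn
  have hm0 : (n : ℝ) - 1 ≠ 0 := by linarith
  have hn0 : (n : ℝ) ≠ 0 := by linarith
  have h1 := sl_first a b hba hs t
  have h2 := sl_second a b hba hs t
  have hX : sl a t (fun z : Box n s ρ => (z.1 b : ℝ))
      = ((ρ : ℝ) - t) * cnt n s ρ a t / ((n : ℝ) - 1) := by
    rw [eq_div_iff hm0]
    linarith
  have hY : sl a t (fun z : Box n s ρ => (z.1 b : ℝ) ^ 2)
      = (2 * ((ρ : ℝ) - t) + n - 2) * (((ρ : ℝ) - t) * cnt n s ρ a t / ((n : ℝ) - 1)) / n := by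
    rw [eq_div_iff hn0, ← hX]
    linarith
  have e : ∀ z : Box n s ρ, ((z.1 b : ℝ) - ((ρ : ℝ) - t) / ((n : ℝ) - 1)) ^ 2
      = ((z.1 b : ℝ) ^ 2 + (-(2 * (((ρ : ℝ) - t) / ((n : ℝ) - 1)))) * (z.1 b : ℝ))
        + (((ρ : ℝ) - t) / ((n : ℝ) - 1)) ^ 2 := by
    intro z
    ring
  rw [sl_congr a t _ _ (fun z _ => e z), sl_add, sl_add, sl_mul, sl_const, hX, hY]
  field_simp
  ring

/-- The shift identity between consecutive slices. -/
theorem sl_shift (a b : Fin n) (hba : b ≠ a) (hb : ρ ≤ s b) (j : ℕ) (hj : j + 1 ≤ s a) :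
    sl a j (fun z : Box n s ρ => (z.1 b : ℝ))
      = sl a (j + 1) (fun z : Box n s ρ => (z.1 b : ℝ)) + cnt n s ρ a (j + 1) := by
  have hab : a ≠ b := Ne.symm hba
  have h := zero_of_line_zero a b
    (fun z : Box n s ρ => (if z.1 a = j then (z.1 b : ℝ) else 0)
      - (if z.1 a = j + 1 then (z.1 b : ℝ) + 1 else 0)) (fun _ => (1 : ℝ)) ?_ (fun _ _ _ => rfl)
  · simp only [one_mul] at h
    rw [Finset.sum_sub_distrib, ← Finset.sum_filter, ← Finset.sum_filter] at h
    have e : sl a (j + 1) (fun z : Box n s ρ => (z.1 b : ℝ)) + cnt n s ρ a (j + 1)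
        = ∑ z ∈ univ.filter (fun z : Box n s ρ => z.1 a = j + 1), ((z.1 b : ℝ) + 1) := by
      rw [Finset.sum_add_distrib, Finset.sum_const, nsmul_eq_mul, mul_one]
      rfl
    rw [e]
    unfold sl
    linarith
  · intro z
    rw [line_sum_arm a b hab hb z
      (fun p q => (if p = j then (q : ℝ) else 0) - (if p = j + 1 then (q : ℝ) + 1 else 0))]
    rw [Finset.sum_sub_distrib, Finset.sum_ite_eq', Finset.sum_ite_eq']
    simp only [Finset.mem_range]
    by_cases h1 : j + 1 < min (z.1 a + z.1 b) (s a) + 1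
    · have h2 : j < min (z.1 a + z.1 b) (s a) + 1 := by omega
      rw [if_pos h1, if_pos h2]
      have e : z.1 a + z.1 b - j = (z.1 a + z.1 b - (j + 1)) + 1 := by omega
      rw [e]
      push_cast
      ring
    · by_cases h2 : j < min (z.1 a + z.1 b) (s a) + 1
      · rw [if_neg h1, if_pos h2]
        have e : z.1 a + z.1 b - j = 0 := by omega
        rw [e]
        simp
      · rw [if_neg h1, if_neg h2]
        simp

/-- The ratio of the sizes of consecutive slices. -/
theorem cnt_step (a b : Fin n) (hba : b ≠ a) (hs : ∀ c, c ≠ a → ρ ≤ s c) (j : ℕ)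
    (hj : j + 1 ≤ s a) :
    ((ρ : ℝ) - j) * cnt n s ρ a j
      = ((ρ : ℝ) - (j + 1) + ((n : ℝ) - 1)) * cnt n s ρ a (j + 1) := by
  have h0 := sl_first a b hba hs j
  have h1 := sl_first a b hba hs (j + 1)
  have h2 := sl_shift a b hba (hs b hba) j hj
  push_cast at h1
  rw [h2] at h0
  linarith

/-- The slices `0, …, min (s a) ρ` are not empty. -/
theorem cnt_pos (a b : Fin n) (hba : b ≠ a) (hb : ρ ≤ s b) (j : ℕ) (hj : j ≤ min (s a) ρ) :
    0 < cnt n s ρ a j := by
  have hab : a ≠ b := Ne.symm hba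
  have hz : (∀ k, (fun k : Fin n => if k = a then j else if k = b then ρ - j else 0) k ≤ s k)
      ∧ ∑ k, (fun k : Fin n => if k = a then j else if k = b then ρ - j else 0) k = ρ := by
    constructor
    · intro k
      show (if k = a then j else if k = b then ρ - j else 0) ≤ s k
      by_cases h1 : k = a
      · rw [if_pos h1, h1]
        omega
      · rw [if_neg h1]
        by_cases h2 : k = b
        · rw [if_pos h2, h2]
          omega
        · rw [if_neg h2]
          exact Nat.zero_le _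
    · have e : ∀ k : Fin n, (if k = a then j else if k = b then ρ - j else 0)
          = (if k = a then j else 0) + (if k = b then ρ - j else 0) := by
        intro k
        by_cases h1 : k = a
        · subst h1
          simp [hab]
        · simp [h1]
      rw [Finset.sum_congr rfl (fun k _ => e k), Finset.sum_add_distrib, Finset.sum_ite_eq',
        Finset.sum_ite_eq']
      simp
      omega
  unfold cnt
  have hex : ∃ z0 : Box n s ρ, z0.1 a = j := by
    refine ⟨⟨_, hz⟩, ?_⟩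
    show (if a = a then j else if a = b then ρ - j else 0) = j
    rw [if_pos rfl]
  obtain ⟨z0, hz0⟩ := hex
  have hmem : z0 ∈ univ.filter (fun z : Box n s ρ => z.1 a = j) :=
    Finset.mem_filter.2 ⟨Finset.mem_univ _, hz0⟩
  have hpos : 0 < (univ.filter (fun z : Box n s ρ => z.1 a = j)).card :=
    Finset.card_pos.2 ⟨z0, hmem⟩
  exact_mod_cast hpos

/-- The slice average in terms of slice sums. -/
theorem slice_avg (a : Fin n) (f : Box n s ρ → ℝ) (z : Box n s ρ) :
    avgRel (SliceRel a) f z = sl a (z.1 a) f / cnt n s ρ a (z.1 a) := by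
  unfold avgRel sl cnt
  have e : univ.filter (fun y : Box n s ρ => SliceRel a z y)
      = univ.filter (fun y : Box n s ρ => y.1 a = z.1 a) := by
    ext y
    simp only [Finset.mem_filter, Finset.mem_univ, true_and]
    unfold SliceRel
    exact eq_comm
  rw [e]

theorem sliceRel_eqv (a : Fin n) : Equivalence (SliceRel (s := s) (ρ := ρ) a) where
  refl _ := rfl
  symm h := h.symm
  trans h1 h2 := h1.trans h2

/-- Pythagoras for the slice averages. -/
theorem pyth_slice (a : Fin n) (f : Box n s ρ → ℝ) :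
    ∑ z, (f z - avgRel (SliceRel a) f z) ^ 2
      = ∑ z, f z ^ 2 - ∑ z, avgRel (SliceRel a) f z ^ 2 := by
  have hR := sliceRel_eqv (s := s) (ρ := ρ) a
  have h1 : ∑ z, f z * avgRel (SliceRel a) f z = ∑ z, avgRel (SliceRel a) f z ^ 2 := by
    have h := avgRel_dot hR f (avgRel (SliceRel a) f)
    rw [avgRel_idem hR] at h
    unfold dot at h
    rw [h]
    exact Finset.sum_congr rfl (fun z _ => by ring)
  have e : ∀ z, (f z - avgRel (SliceRel a) f z) ^ 2
      = f z ^ 2 - 2 * (f z * avgRel (SliceRel a) f z) + avgRel (SliceRel a) f z ^ 2 := by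
    intro z
    ring
  rw [Finset.sum_congr rfl (fun z _ => e z), Finset.sum_add_distrib, Finset.sum_sub_distrib,
    ← Finset.mul_sum, h1]
  ring

/-- The slice average as a function of the level. -/
noncomputable def uS (a : Fin n) (f : Box n s ρ → ℝ) (t : ℕ) : ℝ :=
  sl a t f / cnt n s ρ a t

theorem cnt_mul_uS (a : Fin n) (f : Box n s ρ → ℝ) (t : ℕ) :
    cnt n s ρ a t * uS a f t = sl a t f := by
  unfold uS
  by_cases h : cnt n s ρ a t = 0
  · have h' : (univ.filter (fun z : Box n s ρ => z.1 a = t)).card = 0 := by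
      unfold cnt at h
      exact_mod_cast h
    rw [h, zero_mul]
    unfold sl
    rw [Finset.card_eq_zero.1 h', Finset.sum_empty]
  · field_simp

/-- The lift of `f` for the pair `a, b`, with slope sequence `β` and slice values `u`. -/
noncomputable def lift (a b : Fin n) (β u : ℕ → ℝ) (f : Box n s ρ → ℝ) : Box n s ρ → ℝ :=
  fun z => f z - u (z.1 a) + β (z.1 a) * ((z.1 b : ℝ) - ((ρ : ℝ) - z.1 a) / ((n : ℝ) - 1))

/-- The lift has zero sums on the levels of the pair `a, b`. -/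
theorem lift_level (a b : Fin n) (hba : b ≠ a) (hs : ∀ c, c ≠ a → ρ ≤ s c) (hn : 2 ≤ n)
    (β u : ℕ → ℝ) (f : Box n s ρ → ℝ) (hu : ∀ t, cnt n s ρ a t * u t = sl a t f) (t : ℕ) :
    ∑ z ∈ univ.filter (fun z : Box n s ρ => levelB a b z = t), lift a b β u f z = 0 := by
  have hn' : (2 : ℝ) ≤ n := by exact_mod_cast hn
  have hm0 : (n : ℝ) - 1 ≠ 0 := by linarith
  have e : univ.filter (fun z : Box n s ρ => levelB a b z = t)
      = univ.filter (fun z : Box n s ρ => z.1 a = t) := by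
    refine Finset.filter_congr (fun z _ => ?_)
    rw [levelB_arm a b (Ne.symm hba) (hs b hba) z]
  rw [e]
  have h1 := sl_first a b hba hs t
  have hX : sl a t (fun z : Box n s ρ => (z.1 b : ℝ))
      = ((ρ : ℝ) - t) * cnt n s ρ a t / ((n : ℝ) - 1) := by
    rw [eq_div_iff hm0]
    linarith
  have e2 : ∀ z : Box n s ρ, z.1 a = t → lift a b β u f z
      = (f z + (-(u t) + (-(β t * (((ρ : ℝ) - t) / ((n : ℝ) - 1))))))
        + β t * (z.1 b : ℝ) := by
    intro z hz
    unfold lift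
    rw [hz]
    ring
  have h2 : sl a t (lift a b β u f) = 0 := by
    rw [sl_congr a t _ _ e2, sl_add, sl_add, sl_const, sl_mul, hX]
    have hu' := hu t
    field_simp
    linear_combination (-((n : ℝ) - 1)) * hu'
  exact h2

/-- The lift has the line averages of `f`. -/
theorem lift_line (a b : Fin n) (hba : b ≠ a) (hb : ρ ≤ s b)
    (β u : ℕ → ℝ) (f : Box n s ρ → ℝ)
    (hP : ∀ z : Box n s ρ, ∑ t ∈ range (min (z.1 a + z.1 b) (s a) + 1),
      (β t * (((z.1 a + z.1 b - t : ℕ) : ℝ) - ((ρ : ℝ) - t) / ((n : ℝ) - 1)) - u t) = 0) :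
    avgRel (LineRel a b) (lift a b β u f) = avgRel (LineRel a b) f := by
  have hab : a ≠ b := Ne.symm hba
  have e : lift a b β u f = f + (fun z : Box n s ρ =>
      β (z.1 a) * ((z.1 b : ℝ) - ((ρ : ℝ) - z.1 a) / ((n : ℝ) - 1)) - u (z.1 a)) := by
    funext z
    unfold lift
    simp only [Pi.add_apply]
    ring
  have h0 : avgRel (LineRel a b) (fun z : Box n s ρ =>
      β (z.1 a) * ((z.1 b : ℝ) - ((ρ : ℝ) - z.1 a) / ((n : ℝ) - 1)) - u (z.1 a))
      = fun _ => 0 := by
    funext z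
    unfold avgRel
    rw [line_sum_arm a b hab hb z
      (fun p q => β p * ((q : ℝ) - ((ρ : ℝ) - p) / ((n : ℝ) - 1)) - u p), hP z]
    simp
  rw [e, avgRel_add, h0]
  funext z
  simp

/-- The squared norm of the lift. -/
theorem lift_sq (a b : Fin n) (hba : b ≠ a) (hs : ∀ c, c ≠ a → ρ ≤ s c) (hn : 2 ≤ n)
    (β u : ℕ → ℝ) (f : Box n s ρ → ℝ) :
    ∑ z, lift a b β u f z ^ 2
      = ∑ z : Box n s ρ, (f z - u (z.1 a)) ^ 2
        + 2 * ∑ z : Box n s ρ, (f z - u (z.1 a))
            * (β (z.1 a) * ((z.1 b : ℝ) - ((ρ : ℝ) - z.1 a) / ((n : ℝ) - 1)))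
        + ∑ t ∈ range (min (s a) ρ + 1), β t ^ 2 * (cnt n s ρ a t
            * (((ρ : ℝ) - t) * ((ρ : ℝ) - t + ((n : ℝ) - 1)) * ((n : ℝ) - 2)
              / (((n : ℝ) - 1) ^ 2 * n))) := by
  have e : ∀ z : Box n s ρ, lift a b β u f z ^ 2
      = (f z - u (z.1 a)) ^ 2
        + 2 * ((f z - u (z.1 a))
            * (β (z.1 a) * ((z.1 b : ℝ) - ((ρ : ℝ) - z.1 a) / ((n : ℝ) - 1))))
        + (β (z.1 a) * ((z.1 b : ℝ) - ((ρ : ℝ) - z.1 a) / ((n : ℝ) - 1))) ^ 2 := by
    intro z
    unfold lift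
    ring
  rw [Finset.sum_congr rfl (fun z _ => e z), Finset.sum_add_distrib, Finset.sum_add_distrib,
    ← Finset.mul_sum]
  congr 1
  rw [sum_slices a]
  refine Finset.sum_congr rfl (fun t _ => ?_)
  have e2 : ∀ z : Box n s ρ, z.1 a = t →
      (β (z.1 a) * ((z.1 b : ℝ) - ((ρ : ℝ) - z.1 a) / ((n : ℝ) - 1))) ^ 2
        = β t ^ 2 * ((z.1 b : ℝ) - ((ρ : ℝ) - t) / ((n : ℝ) - 1)) ^ 2 := by
    intro z hz
    rw [hz]
    ring
  rw [sl_congr a t _ _ e2, sl_mul, sl_var a b hba hs hn t]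

/-- The cross terms of the lifts cancel over the arms. -/
theorem cross_zero (a : Fin n) (hn : 2 ≤ n) (β u : ℕ → ℝ) (f : Box n s ρ → ℝ) :
    ∑ b : Fin n, (if b ≠ a then ∑ z : Box n s ρ, (f z - u (z.1 a))
        * (β (z.1 a) * ((z.1 b : ℝ) - ((ρ : ℝ) - z.1 a) / ((n : ℝ) - 1))) else 0) = 0 := by
  have hn' : (2 : ℝ) ≤ n := by exact_mod_cast hn
  have hm0 : (n : ℝ) - 1 ≠ 0 := by linarith
  have e : ∀ b : Fin n, (if b ≠ a then ∑ z : Box n s ρ, (f z - u (z.1 a))
        * (β (z.1 a) * ((z.1 b : ℝ) - ((ρ : ℝ) - z.1 a) / ((n : ℝ) - 1))) else 0)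
      = ∑ z : Box n s ρ, (if b ≠ a then (f z - u (z.1 a))
        * (β (z.1 a) * ((z.1 b : ℝ) - ((ρ : ℝ) - z.1 a) / ((n : ℝ) - 1))) else 0) := by
    intro b
    by_cases h : b ≠ a <;> simp [h]
  rw [Finset.sum_congr rfl (fun b _ => e b), Finset.sum_comm]
  refine Finset.sum_eq_zero (fun z _ => ?_)
  rw [sum_ne a (fun b => (f z - u (z.1 a))
        * (β (z.1 a) * ((z.1 b : ℝ) - ((ρ : ℝ) - z.1 a) / ((n : ℝ) - 1)))),
    ← Finset.mul_sum, ← Finset.mul_sum, Finset.sum_sub_distrib, Finset.sum_const,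
    Finset.card_univ, Fintype.card_fin, nsmul_eq_mul, ← Nat.cast_sum, z.2.2]
  field_simp
  ring

/-- The cumulative sequence of the lift. -/
noncomputable def BS (a : Fin n) (f : Box n s ρ → ℝ) (j : ℕ) : ℝ :=
  -((n : ℝ) - 1) * (∑ i ∈ range (j + 1), cnt n s ρ a i * uS a f i)
    / (((ρ : ℝ) - j) * cnt n s ρ a j)

/-- The slope sequence of the lift. -/
noncomputable def βS (a : Fin n) (f : Box n s ρ → ℝ) (j : ℕ) : ℝ :=
  if j = 0 then BS a f 0 else BS a f j - BS a f (j - 1)

end box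

/-- **Sharp star inequality with uncapped arms.**  Let `a` be a column of a two-rowed class
such that every other column `b` is uncapped (`ρ ≤ s b`); the cap of `a` is arbitrary.  For
every `f` of zero sum, the penalties of the pairs `(a, b)`, `b ≠ a`, plus `2 (n - 1) / n`
times the squared norm of the slice average `E_a f`, are at most the block Dirichlet forms of
these pairs. -/
theorem star_arms_uncapped (n : ℕ) (hn : 2 ≤ n) (s : Fin n → ℕ) (ρ : ℕ) (a : Fin n)
    (hs : ∀ b, b ≠ a → ρ ≤ s b) (f : Box n s ρ → ℝ) (hf : ∑ z, f z = 0) :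
    ∑ b : Fin n, (if b ≠ a then penB a b f else 0)
      + (2 * ((n : ℝ) - 1) / n) * ∑ z, avgRel (SliceRel a) f z ^ 2
      ≤ ∑ b : Fin n, (if b ≠ a then QB a b f else 0) := by
  have hn' : (2 : ℝ) ≤ n := by exact_mod_cast hn
  have hmpos : (0 : ℝ) < (n : ℝ) - 1 := by linarith
  have hm0 : (n : ℝ) - 1 ≠ 0 := ne_of_gt hmpos
  have hn0 : (n : ℝ) ≠ 0 := by linarith
  have hnt : Nontrivial (Fin n) := Fin.nontrivial_iff_two_le.2 hn
  obtain ⟨b0, hb0⟩ := exists_ne a
  -- the sequences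
  have hHs : ∑ i ∈ range (min (s a) ρ + 1), cnt n s ρ a i * uS a f i = 0 := by
    rw [Finset.sum_congr rfl (fun i _ => cnt_mul_uS a f i), ← sum_slices a f, hf]
  have hπpos : ∀ j, j ≤ min (s a) ρ → 0 < cnt n s ρ a j :=
    fun j hj => cnt_pos a b0 hb0 (hs b0 hb0) j hj
  have hA : ∀ j, j < min (s a) ρ → ((ρ : ℝ) - j) * cnt n s ρ a j
      = ((ρ : ℝ) - (j + 1) + ((n : ℝ) - 1)) * cnt n s ρ a (j + 1) :=
    fun j hj => cnt_step a b0 hb0 hs j (by omega)
  have hBJ : BS a f (min (s a) ρ) = 0 := by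
    unfold BS
    rw [hHs]
    simp
  have hK : ∀ j, j ≤ min (s a) ρ → ((ρ : ℝ) - j) * cnt n s ρ a j * BS a f j
      = -((n : ℝ) - 1) * ∑ i ∈ range (j + 1), cnt n s ρ a i * uS a f i := by
    intro j hj
    by_cases h0 : ((ρ : ℝ) - j) * cnt n s ρ a j = 0
    · have hp := hπpos j hj
      have h1 : (ρ : ℝ) - j = 0 := by
        rcases mul_eq_zero.1 h0 with h | h
        · exact h
        · exact absurd h (ne_of_gt hp)
      have h2 : (ρ : ℝ) = (j : ℝ) := by linarith
      have h3 : ρ = j := by exact_mod_cast h2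
      have h4 : j = min (s a) ρ := by omega
      rw [h0, zero_mul, h4, hHs, mul_zero]
    · unfold BS
      rw [← mul_div_assoc, mul_div_cancel_left₀ _ h0]
  obtain ⟨hB, hP, hT⟩ := seq_core (min (s a) ρ) ((n : ℝ) - 1) (ρ : ℝ) hmpos
    (cnt n s ρ a) (uS a f) (BS a f) (βS a f) hπpos hA hK
    (by unfold βS; simp) (fun j => by unfold βS; simp) hBJ
  -- the line condition
  have hline : ∀ b, b ≠ a → ∀ z : Box n s ρ,
      ∑ t ∈ range (min (z.1 a + z.1 b) (s a) + 1),
        (βS a f t * (((z.1 a + z.1 b - t : ℕ) : ℝ) - ((ρ : ℝ) - t) / ((n : ℝ) - 1))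
          - uS a f t) = 0 := by
    intro b hb z
    have hσ := pair_le a b (Ne.symm hb) z
    have hD : min (z.1 a + z.1 b) (s a) ≤ min (s a) ρ := by omega
    have e : ∀ t ∈ range (min (z.1 a + z.1 b) (s a) + 1),
        (βS a f t * (((z.1 a + z.1 b - t : ℕ) : ℝ) - ((ρ : ℝ) - t) / ((n : ℝ) - 1))
          - uS a f t)
        = ((z.1 a + z.1 b : ℕ) : ℝ) * βS a f t
          - (βS a f t * (t + ((ρ : ℝ) - t) / ((n : ℝ) - 1)) + uS a f t) := by
      intro t ht
      have ht' : t ≤ z.1 a + z.1 b := by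
        have := Finset.mem_range.1 ht
        omega
      rw [Nat.cast_sub ht']
      ring
    rw [Finset.sum_congr rfl e, Finset.sum_sub_distrib, ← Finset.mul_sum, hB _ hD, hP _ hD]
    by_cases hc : z.1 a + z.1 b ≤ s a
    · have e2 : min (z.1 a + z.1 b) (s a) = z.1 a + z.1 b := by omega
      rw [e2]
      ring
    · have e2 : min (z.1 a + z.1 b) (s a) = min (s a) ρ := by omega
      rw [e2, hBJ]
      ring
  -- the bound of each arm
  have harm : ∀ b, b ≠ a →
      ∑ z, f z ^ 2 - ∑ z, lift a b (βS a f) (uS a f) f z ^ 2 ≤ QB a b f - penB a b f := by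
    intro b hb
    have hab : a ≠ b := Ne.symm hb
    exact slack_pair_ge a b hab (levelB a b) (fun z G => box_class_level a b hab z G) f hf
      (lift a b (βS a f) (uS a f) f)
      (fun t => lift_level a b hb hs hn (βS a f) (uS a f) f (cnt_mul_uS a f) t)
      (lift_line a b hb (hs b hb) (βS a f) (uS a f) f (hline b hb))
  -- the norms
  have hH2 : ∑ z, avgRel (SliceRel a) f z ^ 2
      = ∑ t ∈ range (min (s a) ρ + 1), cnt n s ρ a t * uS a f t ^ 2 := by
    rw [sum_slices a]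
    refine Finset.sum_congr rfl (fun t _ => ?_)
    rw [sl_congr a t _ (fun _ => uS a f t ^ 2)
      (fun z hz => by rw [slice_avg a f z, hz]; rfl), sl_const]
  have hG : ∑ z : Box n s ρ, (f z - uS a f (z.1 a)) ^ 2
      = ∑ z, f z ^ 2 - ∑ z, avgRel (SliceRel a) f z ^ 2 := by
    rw [← pyth_slice a f]
    refine Finset.sum_congr rfl (fun z _ => ?_)
    rw [slice_avg a f z]
    rfl
  have hW : ∑ t ∈ range (min (s a) ρ + 1), βS a f t ^ 2 * (cnt n s ρ a t
            * (((ρ : ℝ) - t) * ((ρ : ℝ) - t + ((n : ℝ) - 1)) * ((n : ℝ) - 2)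
              / (((n : ℝ) - 1) ^ 2 * n)))
      = (((n : ℝ) - 2) / n) * ∑ z, avgRel (SliceRel a) f z ^ 2 := by
    rw [hH2, ← hT, Finset.mul_sum]
    refine Finset.sum_congr rfl (fun t _ => ?_)
    field_simp
  -- summation over the arms
  have hsum : ∑ b : Fin n, (if b ≠ a then
        (∑ z, f z ^ 2 - ∑ z, lift a b (βS a f) (uS a f) f z ^ 2) else 0)
      ≤ ∑ b : Fin n, (if b ≠ a then QB a b f - penB a b f else 0) := by
    refine Finset.sum_le_sum (fun b _ => ?_)
    by_cases hb : b ≠ a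
    · rw [if_pos hb, if_pos hb]
      exact harm b hb
    · rw [if_neg hb, if_neg hb]
  have hR : ∑ b : Fin n, (if b ≠ a then QB a b f - penB a b f else 0)
      = ∑ b : Fin n, (if b ≠ a then QB a b f else 0)
        - ∑ b : Fin n, (if b ≠ a then penB a b f else 0) := by
    rw [← Finset.sum_sub_distrib]
    refine Finset.sum_congr rfl (fun b _ => ?_)
    by_cases hb : b ≠ a <;> simp [hb]
  have hL : ∑ b : Fin n, (if b ≠ a then
        (∑ z, f z ^ 2 - ∑ z, lift a b (βS a f) (uS a f) f z ^ 2) else 0)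
      = (2 * ((n : ℝ) - 1) / n) * ∑ z, avgRel (SliceRel a) f z ^ 2 := by
    have e : ∀ b : Fin n, (if b ≠ a then
        (∑ z, f z ^ 2 - ∑ z, lift a b (βS a f) (uS a f) f z ^ 2) else 0)
        = (if b ≠ a then (∑ z, avgRel (SliceRel a) f z ^ 2
              - (((n : ℝ) - 2) / n) * ∑ z, avgRel (SliceRel a) f z ^ 2) else 0)
          - 2 * (if b ≠ a then ∑ z : Box n s ρ, (f z - uS a f (z.1 a))
              * (βS a f (z.1 a) * ((z.1 b : ℝ) - ((ρ : ℝ) - z.1 a) / ((n : ℝ) - 1)))
              else 0) := by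
      intro b
      by_cases hb : b ≠ a
      · rw [if_pos hb, if_pos hb, if_pos hb, lift_sq a b hb hs hn, hG, hW]
        ring
      · rw [if_neg hb, if_neg hb, if_neg hb]
        ring
    rw [Finset.sum_congr rfl (fun b _ => e b), Finset.sum_sub_distrib, ← Finset.mul_sum,
      cross_zero a hn, sum_ne_const]
    field_simp
    ring
  rw [hR, hL] at hsum
  linarith

end Vale.Agent.H10.CT
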